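import Vale.Agent.P281.H342.NU.Iface2
import Vale.Agent.P281.H713.SA.G5
import Vale.Agent.P281.ISO.Emb124

/-! P281, theorem NU, row N8 (c): the tube around a smooth fibre. -/

open scoped Manifold ContDiff Topology ComplexOrder
open Set Filter Vale.Agent.P281.J Vale.Agent.P272.K

noncomputable section

namespace Vale.Agent.P281.H713.NU

open Vale.Agent.P281 Vale.Agent.P281.MF Vale.Agent.P281.ISO Vale.Agent.P299.D
open Vale.Agent.P281.H713 Vale.Agent.P281.H713.SA Vale.Agent.P281.H342.NU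

set_option linter.unusedSectionVars false

/-- linear algebra: `ℂ^d → ℂ^n → ℂ^p` is exact -/
theorem ker_eq {n p d : ℕ} (hn : n = p + d) {A : Cm n →L[ℂ] Cm p} {B : Cm d →L[ℂ] Cm n}
    (hA : Function.Surjective A) (hB : Function.Injective B) (hAB : ∀ v, A (B v) = 0) {v : Cm n}
    (hv : A v = 0) : ∃ w, B w = v := by
  have h1 : LinearMap.range (B : Cm d →ₗ[ℂ] Cm n) ≤ LinearMap.ker (A : Cm n →ₗ[ℂ] Cm p) := by
    rintro _ ⟨w, rfl⟩
    exact hAB w
  have h2 : Module.finrank ℂ (LinearMap.range (B : Cm d →ₗ[ℂ] Cm n)) = d := by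
    rw [LinearMap.finrank_range_of_inj (f := (B : Cm d →ₗ[ℂ] Cm n)) hB]
    simp
  have h3 := LinearMap.finrank_range_add_finrank_ker (A : Cm n →ₗ[ℂ] Cm p)
  rw [LinearMap.range_eq_top.2 (show Function.Surjective (A : Cm n →ₗ[ℂ] Cm p) from hA),
    finrank_top] at h3
  have h4 : Module.finrank ℂ (Cm n) = n := by simp
  have h5 : Module.finrank ℂ (Cm p) = p := by simp
  have h6 : Module.finrank ℂ (LinearMap.ker (A : Cm n →ₗ[ℂ] Cm p)) = d := by omega
  have h7 := Submodule.eq_of_le_of_finrank_eq h1 (h2.trans h6.symm)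
  have h8 : v ∈ LinearMap.range (B : Cm d →ₗ[ℂ] Cm n) := by
    rw [h7]
    exact hv
  exact h8

/-- near a point, the fibre of a submersion is the image of the immersion -/
theorem fib_vec {n p d : ℕ} (hn : n = p + d) {Fc : Cm n → Cm p} {ic : Cm d → Cm n} {s₀ : Cm d}
    (hF : ContDiffAt ℂ ω Fc (ic s₀)) (hi : ContDiffAt ℂ ω ic s₀)
    (hFs : Function.Surjective (fderiv ℂ Fc (ic s₀)))
    (hii : Function.Injective (fderiv ℂ ic s₀))
    (hc : ∀ᶠ s in 𝓝 s₀, Fc (ic s) = Fc (ic s₀)) {U : Set (Cm d)} (hU : U ∈ 𝓝 s₀) :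
    ∀ᶠ c in 𝓝 (ic s₀), Fc c = Fc (ic s₀) → c ∈ ic '' U := by
  set A : Cm n →L[ℂ] Cm p := fderiv ℂ Fc (ic s₀) with hA
  set B : Cm d →L[ℂ] Cm n := fderiv ℂ ic s₀ with hB
  have hFd : HasStrictFDerivAt Fc A (ic s₀) := hF.hasStrictFDerivAt (by simp)
  have hid : HasStrictFDerivAt ic B s₀ := hi.hasStrictFDerivAt (by simp)
  have hAB : ∀ v, A (B v) = 0 := by
    have h1 : HasFDerivAt (fun s => Fc (ic s)) (A.comp B) s₀ :=
      hFd.hasFDerivAt.comp s₀ hid.hasFDerivAt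
    have h2 : HasFDerivAt (fun s => Fc (ic s)) (0 : Cm d →L[ℂ] Cm p) s₀ :=
      (hasFDerivAt_const (Fc (ic s₀)) s₀).congr_of_eventuallyEq hc
    intro v
    exact congrArg (fun T : Cm d →L[ℂ] Cm p => T v) (h1.unique h2)
  obtain ⟨P₀, hP₀⟩ := LinearMap.exists_leftInverse_of_injective (B : Cm d →ₗ[ℂ] Cm n)
    (LinearMap.ker_eq_bot.2 hii)
  set P : Cm n →L[ℂ] Cm d := LinearMap.toContinuousLinearMap P₀ with hP
  have hPB : ∀ w, P (B w) = w := fun w => LinearMap.congr_fun hP₀ w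
  -- `(Fc, P)` is injective near `c₀`
  have hinj : Function.Injective (A.prod P) := by
    rw [injective_iff_map_eq_zero]
    intro v hv
    have h1 : A v = 0 := congrArg Prod.fst hv
    have h2 : P v = 0 := congrArg Prod.snd hv
    obtain ⟨w, rfl⟩ := ker_eq hn hFs hii hAB h1
    rw [hPB] at h2
    rw [h2, map_zero]
  have hΨ : HasStrictFDerivAt (fun c => (Fc c, P c)) (A.prod P) (ic s₀) :=
    hFd.prodMk P.hasStrictFDerivAt
  obtain ⟨K, hK0, hK⟩ := ((A.prod P : Cm n →L[ℂ] Cm p × Cm d) :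
    Cm n →ₗ[ℂ] Cm p × Cm d).exists_antilipschitzWith (LinearMap.ker_eq_bot.2 hinj)
  have hloc : ∀ᶠ q in 𝓝 ((ic s₀, ic s₀) : Cm n × Cm n),
      (Fc q.1, P q.1) = (Fc q.2, P q.2) → q.1 = q.2 := by
    have hε : (0 : ℝ) < 1 / (2 * K) := by positivity
    filter_upwards [hΨ.isLittleO.def hε] with q hq he
    rw [he, sub_self, zero_sub, norm_neg] at hq
    have h1 : ‖q.1 - q.2‖ ≤ K * ‖(A.prod P) (q.1 - q.2)‖ := by
      have := hK.le_mul_dist (q.1 - q.2) 0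
      rw [map_zero, dist_zero_right, dist_zero_right] at this
      exact this
    have h2 : ‖q.1 - q.2‖ ≤ (1 / 2) * ‖q.1 - q.2‖ := by
      calc ‖q.1 - q.2‖ ≤ K * ‖(A.prod P) (q.1 - q.2)‖ := h1
        _ ≤ K * (1 / (2 * K) * ‖q.1 - q.2‖) := by gcongr
        _ = (1 / 2) * ‖q.1 - q.2‖ := by
          have : (K : ℝ) ≠ 0 := by positivity
          field_simp
    have h3 : ‖q.1 - q.2‖ = 0 := by
      have := norm_nonneg (q.1 - q.2)
      linarith
    exact sub_eq_zero.1 (norm_eq_zero.1 h3)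
  rw [nhds_prod_eq] at hloc
  obtain ⟨N₁, hN₁, N₂, hN₂, hN⟩ := Filter.mem_prod_iff.1 hloc
  -- `P ∘ ic` is open at `s₀`
  have hg : HasStrictFDerivAt (fun s => P (ic s)) (P.comp B) s₀ :=
    P.hasStrictFDerivAt.comp s₀ hid
  have hg' : map (fun s => P (ic s)) (𝓝 s₀) = 𝓝 (P (ic s₀)) := by
    refine hg.map_nhds_eq_of_surj (LinearMap.range_eq_top.2 fun w => ⟨w, ?_⟩)
    exact hPB w
  have hU' : U ∩ {s | Fc (ic s) = Fc (ic s₀)} ∩ ic ⁻¹' N₂ ∈ 𝓝 s₀ :=
    inter_mem (inter_mem hU hc) (hid.hasFDerivAt.continuousAt.preimage_mem_nhds hN₂)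
  have h1 : (fun s => P (ic s)) '' (U ∩ {s | Fc (ic s) = Fc (ic s₀)} ∩ ic ⁻¹' N₂) ∈
      𝓝 (P (ic s₀)) := by
    rw [← hg']
    exact image_mem_map hU'
  have h2 : ∀ᶠ c in 𝓝 (ic s₀), P c ∈
      (fun s => P (ic s)) '' (U ∩ {s | Fc (ic s) = Fc (ic s₀)} ∩ ic ⁻¹' N₂) :=
    P.continuous.continuousAt.eventually h1
  filter_upwards [h2, hN₁] with c h3 h4 h5
  obtain ⟨s, ⟨⟨hs1, hs2⟩, hs3⟩, hs4⟩ := h3
  have h6 : c = ic s := by
    refine hN (show (c, ic s) ∈ N₁ ×ˢ N₂ from ⟨h4, hs3⟩) ?_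
    show (Fc c, P c) = (Fc (ic s), P (ic s))
    have hs4' : P (ic s) = P c := hs4
    have hs2' : Fc (ic s) = Fc (ic s₀) := hs2
    rw [hs4', hs2', h5]
  exact ⟨s, hs1, h6.symm⟩

section

variable {n p d : ℕ} {Z Y F : Type} [TopologicalSpace Z] [ChartedSpace (Cm n) Z]
  [IsManifold 𝓘(ℂ, Cm n) ω Z] [TopologicalSpace Y] [ChartedSpace (Cm p) Y]
  [IsManifold 𝓘(ℂ, Cm p) ω Y] [TopologicalSpace F] [ChartedSpace (Cm d) F]
  [IsManifold 𝓘(ℂ, Cm d) ω F]

/-- the fibre of `f` near `i t₀` -/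
theorem fib_open (hn : n = p + d) {f : Z → Y} (hf : ContMDiff 𝓘(ℂ, Cm n) 𝓘(ℂ, Cm p) ω f)
    {i : F → Z} (hi : IsSmoothFibre (Cm n) (Cm p) (Cm d) f i) (t₀ : F) :
    ∀ᶠ z in 𝓝 (i t₀), f z = f (i t₀) → z ∈ range i := by
  set φ := chartAt (Cm n) (i t₀) with hφ
  set ψ := chartAt (Cm p) (f (i t₀)) with hψ
  set τ := chartAt (Cm d) t₀ with hτ
  have hz : i t₀ ∈ φ.source := mem_chart_source (Cm n) (i t₀)
  have hy : f (i t₀) ∈ ψ.source := mem_chart_source (Cm p) (f (i t₀))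
  have ht : t₀ ∈ τ.source := mem_chart_source (Cm d) t₀
  have hfz : HolM (Cm n) (Cm p) f (i t₀) := hf (i t₀)
  have hit : HolM (Cm d) (Cm n) i t₀ := hi.hol t₀
  have hψf : HolV (Cm n) (fun w => ψ (f w)) (i t₀) :=
    HolV.comp (h := (ψ : Y → Cm p)) (HolV.chart hy) hfz
  have hφi : HolV (Cm d) (fun t => φ (i t)) t₀ :=
    HolV.comp (h := (φ : Z → Cm n)) (HolV.chart hz) hit
  have a1 : ContDiffAt ℂ ω ((fun w => ψ (f w)) ∘ φ.symm) (φ (i t₀)) := hψf.rep hz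
  have a2 : ContDiffAt ℂ ω ((fun t => φ (i t)) ∘ τ.symm) (τ t₀) := hφi.rep ht
  have hs0 : ((fun t => φ (i t)) ∘ τ.symm) (τ t₀) = φ (i t₀) := by
    simp [τ.left_inv ht]
  have b1 := dV_eq_chart hz hψf
  have b2 := dV_comp (h := (ψ : Y → Cm p)) (HolV.chart hy) hfz
  have b3 := dV_eq_chart ht hφi
  have b4 := dV_comp (h := (φ : Z → Cm n)) (HolV.chart hz) hit
  have hsurj : Function.Surjective (fderiv ℂ ((fun w => ψ (f w)) ∘ φ.symm) (φ (i t₀))) := by
    intro y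
    obtain ⟨v, hv⟩ := surj_of_isUnit (isUnit_dV_chart (E := Cm p) hy) y
    have hsub : Function.Surjective (dM (Cm n) (Cm p) f (i t₀)) := hi.submersive t₀
    obtain ⟨u, hu⟩ := hsub v
    refine ⟨dV (Cm n) (φ : Z → Cm n) (i t₀) u, ?_⟩
    have h4 := congrArg (fun T : Cm n →L[ℂ] Cm p => T u) b1
    have h5 := congrArg (fun T : Cm n →L[ℂ] Cm p => T u) b2
    simp only [ContinuousLinearMap.comp_apply] at h4 h5
    rw [← h4, h5, hu, hv]
  have hinj : Function.Injective (fderiv ℂ ((fun t => φ (i t)) ∘ τ.symm) (τ t₀)) := by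
    rw [injective_iff_map_eq_zero]
    intro w hw
    obtain ⟨u, rfl⟩ := surj_of_isUnit (isUnit_dV_chart (E := Cm d) ht) w
    have h4 := congrArg (fun T : Cm d →L[ℂ] Cm n => T u) b3
    have h5 := congrArg (fun T : Cm d →L[ℂ] Cm n => T u) b4
    simp only [ContinuousLinearMap.comp_apply] at h4 h5
    rw [hw, h5] at h4
    have h6 : Function.Injective (dV (Cm n) (φ : Z → Cm n) (i t₀)) := by
      obtain ⟨u', hu'⟩ := isUnit_dV_chart (E := Cm n) hz
      intro a b hab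
      have h7 : (((u'⁻¹ : (Cm n →L[ℂ] Cm n)ˣ) : Cm n →L[ℂ] Cm n).comp (u' : Cm n →L[ℂ] Cm n)) =
        ContinuousLinearMap.id ℂ (Cm n) := u'.inv_mul
      have h8 := congrArg (fun T : Cm n →L[ℂ] Cm n => T a) h7
      have h9 := congrArg (fun T : Cm n →L[ℂ] Cm n => T b) h7
      simp only [ContinuousLinearMap.comp_apply, ContinuousLinearMap.id_apply] at h8 h9
      rw [← h8, ← h9, hu', hab]
    have h7 : dM (Cm d) (Cm n) i t₀ u = 0 := h6 (h4.trans (map_zero _).symm)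
    have h8 : u = 0 := hi.immersive t₀ (h7.trans (map_zero _).symm)
    rw [h8, map_zero]
  have hcont : ContinuousAt (fun s => i (τ.symm s)) (τ t₀) := by
    have h1 : ContinuousAt i (τ.symm (τ t₀)) := by
      rw [τ.left_inv ht]
      exact hit.continuousAt
    exact h1.comp (τ.continuousAt_symm (τ.map_source ht))
  have hU0 : i (τ.symm (τ t₀)) ∈ φ.source := by
    rw [τ.left_inv ht]
    exact hz
  have hU : {s | i (τ.symm s) ∈ φ.source} ∈ 𝓝 (τ t₀) :=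
    hcont.preimage_mem_nhds (φ.open_source.mem_nhds hU0)
  have hFc : ∀ s, i (τ.symm s) ∈ φ.source →
      ((fun w => ψ (f w)) ∘ φ.symm) (((fun t => φ (i t)) ∘ τ.symm) s) = ψ (f (i t₀)) := by
    intro s hs
    show ψ (f (φ.symm (φ (i (τ.symm s))))) = _
    rw [φ.left_inv hs, hi.const (τ.symm s) t₀]
  have hc0 : ((fun w => ψ (f w)) ∘ φ.symm) (((fun t => φ (i t)) ∘ τ.symm) (τ t₀)) =
      ψ (f (i t₀)) := hFc _ hU0
  rw [← hs0] at a1 hsurj
  have key := fib_vec hn (Fc := (fun w => ψ (f w)) ∘ φ.symm)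
    (ic := (fun t => φ (i t)) ∘ τ.symm) (s₀ := τ t₀) a1 a2 hsurj hinj
    (by
      filter_upwards [hU] with s hs
      rw [hFc s hs, hc0]) hU
  rw [hs0] at key
  have key' : ∀ᶠ z in 𝓝 (i t₀), ((fun w => ψ (f w)) ∘ φ.symm) (φ z) =
      ((fun w => ψ (f w)) ∘ φ.symm) (φ (i t₀)) → φ z ∈
        ((fun t => φ (i t)) ∘ τ.symm) '' {s | i (τ.symm s) ∈ φ.source} :=
    (φ.continuousAt hz).eventually key
  filter_upwards [key', φ.open_source.mem_nhds hz] with z h1 h2 h3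
  obtain ⟨s, hs1, hs2⟩ := h1 (by
    show ψ (f (φ.symm (φ z))) = ψ (f (φ.symm (φ (i t₀))))
    rw [φ.left_inv h2, φ.left_inv hz, h3])
  exact ⟨τ.symm s, φ.injOn hs1 h2 hs2⟩

/-- submersivity is open -/
theorem surj_nhds {f : Z → Y} {z : Z} (hf : HolM (Cm n) (Cm p) f z)
    (hs : Function.Surjective (dM (Cm n) (Cm p) f z)) :
    ∀ᶠ w in 𝓝 z, f w ∈ (chartAt (Cm p) (f z)).source →
      Function.Surjective (dM (Cm n) (Cm p) f w) := by
  set φ := chartAt (Cm n) z with hφ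
  set ψ := chartAt (Cm p) (f z) with hψ
  have hz : z ∈ φ.source := mem_chart_source (Cm n) z
  have hy : f z ∈ ψ.source := mem_chart_source (Cm p) (f z)
  have hψf : HolV (Cm n) (fun w => ψ (f w)) z := HolV.comp (h := (ψ : Y → Cm p)) (HolV.chart hy) hf
  have h1 := holV_fderiv hz hψf
  have h2 := dV_eq_chart hz hψf
  have h3 := dV_comp (h := (ψ : Y → Cm p)) (HolV.chart hy) hf
  have hsurj : Function.Surjective (fderiv ℂ ((fun w => ψ (f w)) ∘ φ.symm) (φ z)) := by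
    intro y
    obtain ⟨v, hv⟩ := surj_of_isUnit (isUnit_dV_chart (E := Cm p) hy) y
    obtain ⟨u, hu⟩ := hs v
    refine ⟨dV (Cm n) (φ : Z → Cm n) z u, ?_⟩
    have h4 := congrArg (fun T : Cm n →L[ℂ] Cm p => T u) h2
    have h5 := congrArg (fun T : Cm n →L[ℂ] Cm p => T u) h3
    simp only [ContinuousLinearMap.comp_apply] at h4 h5
    rw [← h4, h5, hu, hv]
  obtain ⟨T, hT⟩ := LinearMap.exists_rightInverse_of_surjective
    ((fderiv ℂ ((fun w => ψ (f w)) ∘ φ.symm) (φ z) : Cm n →L[ℂ] Cm p) : Cm n →ₗ[ℂ] Cm p)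
    (LinearMap.range_eq_top.2 hsurj)
  set T' : Cm p →L[ℂ] Cm n := LinearMap.toContinuousLinearMap T with hT'
  have h4 : (fderiv ℂ ((fun w => ψ (f w)) ∘ φ.symm) (φ z)).comp T' = 1 := by
    refine ContinuousLinearMap.ext fun y => ?_
    exact LinearMap.congr_fun hT y
  have h5 : ContinuousAt (fun w => (fderiv ℂ ((fun w => ψ (f w)) ∘ φ.symm) (φ w)).comp T') z :=
    h1.continuousAt.clm_comp continuousAt_const
  have h6 : ∀ᶠ w in 𝓝 z, IsUnit ((fderiv ℂ ((fun w => ψ (f w)) ∘ φ.symm) (φ w)).comp T') := by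
    refine h5.eventually (Units.isOpen.mem_nhds ?_)
    show IsUnit ((fderiv ℂ ((fun w => ψ (f w)) ∘ φ.symm) (φ z)).comp T')
    rw [h4]
    exact isUnit_one
  have h7 : ∀ᶠ w in 𝓝 z, HolM (Cm n) (Cm p) f w :=
    (contMDiffAt_iff_contMDiffAt_nhds (by simp)).1 hf
  filter_upwards [h6, h7, φ.open_source.mem_nhds hz] with w k1 k2 k3 k4
  have hψw : HolV (Cm n) (fun w => ψ (f w)) w :=
    HolV.comp (h := (ψ : Y → Cm p)) (HolV.chart k4) k2
  have e1 := dV_eq_chart k3 hψw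
  have e2 := dV_comp (h := (ψ : Y → Cm p)) (HolV.chart k4) k2
  have e3 : Function.Injective (dV (Cm p) (ψ : Y → Cm p) (f w)) := by
    obtain ⟨u', hu'⟩ := isUnit_dV_chart (E := Cm p) k4
    intro a b hab
    have h7 : (((u'⁻¹ : (Cm p →L[ℂ] Cm p)ˣ) : Cm p →L[ℂ] Cm p).comp (u' : Cm p →L[ℂ] Cm p)) =
      ContinuousLinearMap.id ℂ (Cm p) := u'.inv_mul
    have h8 := congrArg (fun T : Cm p →L[ℂ] Cm p => T a) h7
    have h9 := congrArg (fun T : Cm p →L[ℂ] Cm p => T b) h7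
    simp only [ContinuousLinearMap.comp_apply, ContinuousLinearMap.id_apply] at h8 h9
    rw [← h8, ← h9, hu', hab]
  intro y
  obtain ⟨v, hv⟩ := surj_of_isUnit k1 (dV (Cm p) (ψ : Y → Cm p) (f w) y)
  obtain ⟨u, hu⟩ := surj_of_isUnit (isUnit_dV_chart (E := Cm n) k3) (T' v)
  refine ⟨u, e3 ?_⟩
  have h4 := congrArg (fun T : Cm n →L[ℂ] Cm p => T u) e1
  have h5 := congrArg (fun T : Cm n →L[ℂ] Cm p => T u) e2
  simp only [ContinuousLinearMap.comp_apply] at h4 h5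
  rw [← h5, h4, hu]
  exact hv

end

/-- **Row N8 (c)** -/
theorem tubePart : TubePart := by
  intro n p d hn X Z Y F _ _ _ _ _ _ _ _ _ _ _ _ _ _ _ _ _ _ _ _ j hj f hf i hi hinj
  obtain ⟨hj1, hj2, hj3, -⟩ := hj
  obtain ⟨t₀⟩ : Nonempty F := ConnectedSpace.toNonempty
  have : Nonempty Z := ⟨i t₀⟩
  set y₀' : Y := f (i t₀) with hy₀'
  set ψ := chartAt (Cm p) y₀' with hψ
  have hy : y₀' ∈ ψ.source := mem_chart_source (Cm p) y₀'
  have hconst : ∀ t, f (i t) = y₀' := fun t => hi.const t t₀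
  set Gd : Set Z := {z | f z ∈ ψ.source ∧ Function.Surjective (dM (Cm n) (Cm p) f z) ∧
    (f z = y₀' → z ∈ range i)} with hG
  have hGi : ∀ t, i t ∈ interior Gd := by
    intro t
    rw [mem_interior_iff_mem_nhds]
    have h1 : ∀ᶠ z in 𝓝 (i t), f z ∈ ψ.source := by
      refine (hf (i t)).continuousAt.eventually (ψ.open_source.mem_nhds ?_)
      rw [hconst t]
      exact hy
    have h2 := surj_nhds (n := n) (p := p) (f := f) (z := i t) (hf (i t)) (hi.submersive t)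
    rw [hconst t] at h2
    have h3 := fib_open hn hf hi t
    rw [hconst t] at h3
    filter_upwards [h1, h2, h3] with z k1 k2 k3
    exact ⟨k1, k2 k1, k3⟩
  set O₁ : Set X := j '' interior Gd with hO₁
  have hO₁o : IsOpen O₁ := hj2.isOpenMap _ isOpen_interior
  set K : Set X := range (fun t => j (i t)) with hK
  have hKc : IsCompact K := isCompact_range (hj2.continuous.comp hi.hol.continuous)
  have hKO : K ⊆ O₁ := by
    rintro _ ⟨t, rfl⟩
    exact ⟨i t, hGi t, rfl⟩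
  obtain ⟨N, hNo, hKN, hNO, hNc⟩ := exists_open_between_and_isCompact_closure hKc hO₁o hKO
  set y : X → Cm p := fun x => ψ (f (Function.invFun j x)) with hy'
  have hyj : ∀ z, y (j z) = ψ (f z) := by
    intro z
    show ψ (f (Function.invFun j (j z))) = _
    rw [Function.leftInverse_invFun hj2.injective z]
  have hint : interior Gd ⊆ Gd := interior_subset
  have hyh : ∀ z ∈ Gd, HolV (Cm n) y (j z) := by
    intro z hz
    refine holV_of_comp (hj1 z) (hj3 z) ?_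
    have h1 : (fun w => y (j w)) = fun w => ψ (f w) := funext hyj
    rw [h1]
    exact HolV.comp (h := (ψ : Y → Cm p)) (HolV.chart hz.1) (hf z)
  have hyc : ContinuousOn y (closure N) := by
    intro x hx
    obtain ⟨z, hz, rfl⟩ := hNO hx
    exact (hyh z (hint hz)).continuousAt.continuousWithinAt
  have hbd : IsCompact (closure N \ N) := hNc.diff hNo
  set W : Set (Cm p) := ψ.target ∩ (y '' (closure N \ N))ᶜ with hW
  have hWo : IsOpen W := by
    exact ψ.open_target.inter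
      (hbd.image_of_continuousOn (hyc.mono diff_subset)).isClosed.isOpen_compl
  have hback : ∀ x ∈ O₁, y x = ψ y₀' → x ∈ K := by
    rintro _ ⟨z, hz, rfl⟩ h1
    rw [hyj] at h1
    have h2 : f z = y₀' := ψ.injOn (hint hz).1 hy h1
    obtain ⟨t, ht⟩ := (hint hz).2.2 h2
    exact ⟨t, by rw [← ht]⟩
  have hq : ψ y₀' ∈ W := by
    refine ⟨ψ.map_source hy, ?_⟩
    rintro ⟨x, ⟨hx1, hx2⟩, hx3⟩
    exact hx2 (hKN (hback x (hNO hx1) hx3))
  have hOo : IsOpen (N ∩ y ⁻¹' W) :=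
    (hyc.mono subset_closure).isOpen_inter_preimage hNo hWo
  have hOlift : ∀ x ∈ N ∩ y ⁻¹' W, ∃ z ∈ Gd, j z = x := by
    intro x hx
    obtain ⟨z, hz, rfl⟩ := hNO (subset_closure hx.1)
    exact ⟨z, hint hz, rfl⟩
  refine ⟨ψ, N ∩ y ⁻¹' W, y, W, ψ y₀', ⟨⟨hOo, ?_, ?_, hWo, ?_⟩, chart_mem_atlas _ _,
    inter_subset_left, ?_⟩, hq, ?_⟩
  · intro x hx
    obtain ⟨z, hz, rfl⟩ := hOlift x hx
    exact hyh z hz
  · intro x hx
    obtain ⟨z, hz, rfl⟩ := hOlift x hx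
    have h1 : dV (Cm n) (fun w => y (j w)) z =
        (dV (Cm n) y (j z)).comp (dM (Cm n) (Cm n) j z) := dV_comp (hyh z hz) (hj1 z)
    have h2 : (fun w => y (j w)) = fun w => ψ (f w) := funext hyj
    have h3 : dV (Cm n) (fun w => ψ (f w)) z =
        (dV (Cm p) (ψ : Y → Cm p) (f z)).comp (dM (Cm n) (Cm p) f z) :=
      dV_comp (h := (ψ : Y → Cm p)) (HolV.chart hz.1) (hf z)
    rw [h2, h3] at h1
    intro v
    obtain ⟨u, hu⟩ := surj_of_isUnit (isUnit_dV_chart (E := Cm p) hz.1) v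
    obtain ⟨w, hw⟩ := hz.2.1 u
    refine ⟨dM (Cm n) (Cm n) j z w, ?_⟩
    have h4 := congrArg (fun T : Cm n →L[ℂ] Cm p => T w) h1
    simp only [ContinuousLinearMap.comp_apply] at h4
    rw [hw, hu] at h4
    exact h4.symm
  · intro L hL hLW
    have h1 : {x | x ∈ N ∩ y ⁻¹' W ∧ y x ∈ L} = closure N ∩ y ⁻¹' L := by
      ext x
      constructor
      · rintro ⟨h2, h3⟩
        exact ⟨subset_closure h2.1, h3⟩
      · rintro ⟨h2, h3⟩
        have h4 : y x ∈ W := hLW h3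
        refine ⟨⟨?_, h4⟩, h3⟩
        by_contra h5
        exact h4.2 ⟨x, ⟨h2, h5⟩, rfl⟩
    rw [h1]
    exact (hyc.preimage_isClosed_of_isClosed isClosed_closure hL.isClosed).isCompact
  · intro x hx
    obtain ⟨z, hz, rfl⟩ := hOlift x hx
    exact ⟨z, rfl, hz.1, hyj z, hz.2.1⟩
  · intro x
    constructor
    · rintro ⟨t, rfl⟩
      have h1 : y (j (i t)) = ψ y₀' := by rw [hyj, hconst t]
      refine ⟨⟨hKN ⟨t, rfl⟩, ?_⟩, h1⟩
      show y (j (i t)) ∈ W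
      rw [h1]
      exact hq
    · rintro ⟨h1, h2⟩
      exact hback x (hNO (subset_closure h1.1)) h2

end Vale.Agent.P281.H713.NU
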